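import Mathlib

/-!
# Subtrees of a tree: the Helly property (helper749)
-/

set_option autoImplicit false

namespace Vale.Agent.P235.H749

open SimpleGraph

variable {ι : Type} {T : SimpleGraph ι}

/-- The parent is unique. -/
theorem parent_unique (hT : T.IsTree) (r : ι) {s x y : ι} (hx : T.Adj s x) (hy : T.Adj s y)
    (hdx : T.dist r x < T.dist r s) (hdy : T.dist r y < T.dist r s) : x = y := by
  classical
  obtain ⟨p, hp, -⟩ := (hT.connected r s).exists_path_of_dist
  have key : ∀ z, T.Adj s z → T.dist r z < T.dist r s → z = p.penultimate := by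
    intro z hz hdz
    obtain ⟨q, hq, hql⟩ := (hT.connected r z).exists_path_of_dist
    have hs : s ∉ q.support := by
      intro h
      have h1 := dist_le (q.takeUntil s h)
      have h2 := q.length_takeUntil_le_length h
      omega
    exact hT.isAcyclic.eq_penultimate_of_adj_end hp hz
      (hT.isAcyclic.mem_support_of_ne_mem_support_of_adj_of_isPath hp hq hz hs)
  rw [key x hx hdx, key y hy hdy]

/-- A vertex of a connected set which is not a highest one has its parent in the set. -/
theorem exists_parent (hT : T.IsTree) (r : ι) {A : Set ι} (hA : (T.induce A).Preconnected)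
    {s a : ι} (hs : s ∈ A) (ha : a ∈ A) (hsa : s ≠ a) (hd : T.dist r a ≤ T.dist r s) :
    ∃ x ∈ A, T.Adj s x ∧ T.dist r x < T.dist r s := by
  classical
  by_contra hcon
  push Not at hcon
  have step : ∀ y z : ι, T.Adj y z → z ∈ A → (∀ p : T.Walk r y, p.IsPath → s ∈ p.support) →
      ∀ q : T.Walk r z, q.IsPath → s ∈ q.support := by
    intro y z hyz hz hy q hq
    obtain ⟨p, hp, hpl⟩ := (hT.connected r y).exists_path_of_dist
    have hsp := hy p hp
    by_cases h : z ∈ p.support
    · have h1 := hT.isAcyclic.path_concat hq hp hyz.symm h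
      rw [h1, Walk.support_concat, List.mem_append] at hsp
      rcases hsp with h2 | h2
      · exact h2
      · exfalso
        have h3 : s = y := by simpa using h2
        subst h3
        have h4 := hcon z hz hyz
        have h5 := dist_le q
        have h6 : p.length = q.length + 1 := by rw [h1, Walk.length_concat]
        omega
    · have h1 := hT.isAcyclic.mem_support_of_ne_mem_support_of_adj_of_isPath hq hp hyz.symm h
      rw [hT.isAcyclic.path_concat hp hq hyz h1]
      exact p.support_subset_support_concat _ hsp
  have all : ∀ y : A, Relation.ReflTransGen (T.induce A).Adj ⟨s, hs⟩ y →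
      ∀ q : T.Walk r y.1, q.IsPath → s ∈ q.support := by
    intro y hy
    induction hy with
    | refl => exact fun q _ => q.end_mem_support
    | @tail b c _ hbc ih => exact step b.1 c.1 hbc c.2 ih
  obtain ⟨q, hq, hql⟩ := (hT.connected r a).exists_path_of_dist
  have h1 := all ⟨a, ha⟩ ((reachable_iff_reflTransGen _ _).1 (hA ⟨s, hs⟩ ⟨a, ha⟩)) q hq
  have h2 := dist_le (q.takeUntil s h1)
  have h3 : (q.takeUntil s h1).length < q.length := Walk.length_takeUntil_lt_length h1 hsa
  omega

/-- The Helly property: connected sets `A v`, `v ∈ S`, in a tree which meet pairwise have a common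
vertex. -/
theorem helly {V : Type} [Finite V] (hT : T.IsTree) (A : V → Set ι) (S : Set V)
    (hA : ∀ v, (T.induce (A v)).Preconnected) (hne : ∀ v, (A v).Nonempty)
    (h : ∀ u ∈ S, ∀ v ∈ S, u ≠ v → (A u ∩ A v).Nonempty) : ∃ t, ∀ v ∈ S, t ∈ A v := by
  classical
  obtain ⟨r⟩ := hT.connected.nonempty
  rcases S.eq_empty_or_nonempty with rfl | hS
  · exact ⟨r, fun v hv => absurd hv (Set.notMem_empty v)⟩
  have htop : ∀ v, ∃ t ∈ A v, ∀ t' ∈ A v, T.dist r t ≤ T.dist r t' := by
    intro v
    obtain ⟨t, ht, hmin⟩ := WellFounded.has_min (measure fun t => T.dist r t).wf (A v) (hne v)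
    exact ⟨t, ht, fun t' ht' => not_lt.1 (hmin t' ht')⟩
  choose top htop hmin using htop
  obtain ⟨v0, hv0, hmax⟩ := Set.exists_max_image S (fun v => T.dist r (top v)) S.toFinite hS
  refine ⟨top v0, fun u hu => ?_⟩
  by_cases huv : u = v0
  · rw [huv]
    exact htop v0
  obtain ⟨t, htu, htv⟩ := h u hu v0 hv0 huv
  have key : ∀ (n : ℕ) (t : ι), T.dist r t = n → t ∈ A u → t ∈ A v0 → top v0 ∈ A u := by
    intro n
    induction n using Nat.strong_induction_on with
    | _ n ih =>
      intro t hn htu htv
      by_cases ht0 : t = top v0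
      · rw [← ht0]
        exact htu
      obtain ⟨x, hx, htx, hdx⟩ := exists_parent hT r (hA v0) htv (htop v0) ht0 (hmin v0 t htv)
      by_cases ht1 : t = top u
      · exfalso
        have h1 := hmax u hu
        have h2 := hmin v0 x hx
        rw [← ht1] at h1
        omega
      obtain ⟨y, hy, hty, hdy⟩ := exists_parent hT r (hA u) htu (htop u) ht1 (hmin u t htu)
      have hxy : x = y := parent_unique hT r htx hty hdx hdy
      subst hxy
      exact ih _ (by omega) x rfl hy hx
  exact key _ t rfl htu htv

end Vale.Agent.P235.H749
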