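import Vale.Agent.P235.H786.TDefs
import Vale.Agent.P235.H749.Helly

/-!
# P235, Theorem W, row (CLIQ): a clique lies in a bag (helper749)
-/

set_option autoImplicit false

namespace Vale.Agent.P235.H749

open SimpleGraph Vale.Agent.P235.H786

/-- (CLIQ) a clique lies in a bag -/
theorem cliq : CliqStmt := by
  intro V ι _ _ G T B S hB hS
  obtain ⟨t, ht⟩ := helly hB.tree (fun v => {t | v ∈ B t}) S hB.conn hB.cover (by
    intro u hu v hv huv
    obtain ⟨t, h1, h2⟩ := hB.edge u v (hS u hu v hv huv)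
    exact ⟨t, h1, h2⟩)
  exact ⟨t, fun v hv => ht v hv⟩

end Vale.Agent.P235.H749
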